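import Vale.Agent.P207.SPH.H647.All

/-!
# P207: the abstract end of the proof
-/

open Matrix MeasureTheory Set Filter Topology

noncomputable section

namespace Vale.Agent.P207Z.Fin

open Vale.Agent.P207.SPH

variable {m : ℕ} {X : Type} [TopologicalSpace X]

theorem card_lt {k : ℕ} (hk : k ≤ m) :
    (Finset.univ.filter fun i : Fin m => (i : ℕ) < k).card = k := by
  rw [Fin.card_filter_val_lt]
  omega

/-- majorisation by two values -/
theorem prod_le_of_psum {χ : Fin m → ℝ} (hχ : ∀ i, 0 < χ i) {a : ℝ} (ha : 0 < a) {k : ℕ}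
    (hk : k ≤ m) (hsum : ∑ i, χ i = a * (m + k)) (hk2 : 2 * a * k ≤ psum k χ) :
    ∏ i, 2 * χ i ≤ (2 * a) ^ (m - k) * (4 * a) ^ k := by
  set l : Fin m → ℝ := fun i => if (i : ℕ) < k then 4 * a else 2 * a with hl
  have hl0 : ∀ i, 0 < l i := fun i => by
    simp only [hl]
    split_ifs <;> positivity
  have hc := card_lt hk
  have hc' : (Finset.univ.filter fun i : Fin m => ¬ (i : ℕ) < k).card = m - k := by
    have := Finset.card_filter_add_card_filter_not (s := (Finset.univ : Finset (Fin m)))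
      fun i => (i : ℕ) < k
    rw [Finset.card_univ, Fintype.card_fin, hc] at this
    omega
  have h1 : ∏ i, l i = (2 * a) ^ (m - k) * (4 * a) ^ k := by
    rw [hl, Finset.prod_ite, Finset.prod_const, Finset.prod_const, hc, hc', mul_comm]
  have h2 : ∑ i, (2 * χ i / l i - 1) ≤ 0 := by
    have e : ∀ i, 2 * χ i / l i - 1 =
        χ i / a - (if (i : ℕ) < k then χ i else 0) / (2 * a) - 1 := fun i => by
      simp only [hl]
      split_ifs <;> field_simp <;> ring
    rw [Finset.sum_congr rfl fun i _ => e i, Finset.sum_sub_distrib, Finset.sum_sub_distrib,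
      ← Finset.sum_div, ← Finset.sum_div, hsum]
    have h3 : (k : ℝ) ≤ psum k χ / (2 * a) := by
      rw [le_div_iff₀ (by positivity)]
      linarith
    have h4 : a * (m + k) / a = m + k := by field_simp
    simp only [Finset.sum_const, Finset.card_univ, Fintype.card_fin, nsmul_eq_mul, mul_one, h4]
    unfold psum at h3
    linarith
  have h3 : ∏ i, 2 * χ i / l i ≤ 1 := by
    refine le_trans (Finset.prod_le_prod (g := fun i => Real.exp (2 * χ i / l i - 1))
      (fun i _ => by have := hχ i; have := hl0 i; positivity) fun i _ => ?_) ?_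
    · linarith [Real.add_one_le_exp (2 * χ i / l i - 1)]
    · rw [← Real.exp_sum]
      exact Real.exp_le_one_iff.2 h2
  rwa [Finset.prod_div_distrib, div_le_one (Finset.prod_pos fun i _ => hl0 i), h1] at h3

/-- growth of `k`-volumes, for the fundamental solution -/
def GrowY (Y : ℝ → X → Mt m) (a : ℝ) (k : ℕ) : Prop :=
  ∃ c T₀ : ℝ, 0 < c ∧ ∀ T ≥ T₀, ∀ f, ∃ W : Matrix (Fin m) (Fin k) ℝ, Wᵀ * W = 1 ∧
    c * Real.exp (4 * a * k * T) ≤ ((Y T f * W)ᵀ * (Y T f * W)).det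

theorem GrowY.le_N [CompactSpace X] (D : Sys m X) {Y : ℝ → X → Mt m} (hY : Fund D D.U Y)
    {a : ℝ} {k : ℕ} (hk : k ≤ m) (h : GrowY Y a k) :
    ∃ c T₀ : ℝ, 0 < c ∧ ∀ T ≥ T₀, ∀ f, c * Real.exp (4 * a * k * T) ≤ D.N Y k T f := by
  obtain ⟨c, T₀, hc, h⟩ := h
  have ha := D.a_pos
  set β : ℝ := max D.b D.a with hβ
  have hβ0 : 0 < β := lt_of_lt_of_le ha (le_max_right _ _)
  have hS0 : ∀ f, ∀ x ≠ 0, 0 < x ⬝ᵥ (D.S f *ᵥ x) := fun f x hx =>
    lt_of_lt_of_le (mul_pos (mul_pos two_pos ha) (H761.dp_pos hx)) (D.S_lo f x)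
  have hS1 : ∀ f x, x ⬝ᵥ (D.S f *ᵥ x) ≤ 2 * β * (x ⬝ᵥ ((1 : Mt m) *ᵥ x)) := fun f x => by
    rw [Sys.S, add_mulVec, dotProduct_add, one_mulVec]
    have h1 := D.hiU f x
    have h2 := D.hiV f x
    have h3 := mul_le_mul_of_nonneg_right (le_max_left D.b D.a) (H761.dp_nonneg x)
    linarith
  refine ⟨c / ((2 * D.a)⁻¹ ^ k * (2 * β) ^ k), T₀, by positivity, fun T hT f => ?_⟩
  obtain ⟨W, hW, hle⟩ := h T hT f
  obtain ⟨⟨_, -, -, hmax⟩, -⟩ := (fun h => And.intro (h.1 T f) h.2)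
    (H647.nStmt m X D Y hY k hk)
  have hYi : ∀ x ≠ 0, Y T f *ᵥ x ≠ 0 := fun x hx h0 => hx (by
    refine Matrix.mulVec_injective_of_isUnit (A := Y T f) ?_ (by rw [h0, mulVec_zero])
    rw [Matrix.isUnit_iff_isUnit_det, hY.det, isUnit_iff_ne_zero]
    exact (Real.exp_pos _).ne')
  have hG0 : ∀ x ≠ 0, 0 < x ⬝ᵥ (((Y T f)ᵀ * D.S (D.Φ T f) * Y T f) *ᵥ x) := fun x hx => by
    rw [H761.quad_conj]
    exact hS0 _ _ (hYi x hx)
  have hG00 : ∀ x, 0 ≤ x ⬝ᵥ (((Y T f)ᵀ * D.S (D.Φ T f) * Y T f) *ᵥ x) := fun x => by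
    by_cases hx : x = 0
    · simp [hx]
    · exact (hG0 x hx).le
  have hW1 : Wᵀ * (1 : Mt m) * W = 1 := by rwa [Matrix.mul_one]
  obtain ⟨W', hW', h1⟩ := H761.renorm (D.S_symm f) (hS0 f)
    (H761.conj_symm (Y T f) (D.S_symm (D.Φ T f))) hG00 (by positivity) (hS1 f) hW1
  have h2 := H761.frame_mono (G1 := (Y T f)ᵀ * Y T f) (W := W)
    (by rw [transpose_mul, transpose_transpose])
    (H761.conj_symm (Y T f) (D.S_symm (D.Φ T f)))
    (fun x => by rw [H761.quad_gram]; exact H761.dp_nonneg _) hG0 (c := (2 * D.a)⁻¹)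
    (by positivity) (fun x => by
      rw [H761.quad_gram, H761.quad_conj, le_inv_mul_iff₀ (by positivity)]
      exact D.S_lo _ _) (H761.inj_of hW1)
  have h3 : (Y T f * W)ᵀ * (Y T f * W) = Wᵀ * ((Y T f)ᵀ * Y T f) * W := by
    rw [transpose_mul]
    simp only [Matrix.mul_assoc]
  rw [h3] at hle
  rw [div_mul_eq_mul_div, div_le_iff₀ (by positivity)]
  calc _ ≤ _ := hle.trans h2
    _ ≤ (2 * D.a)⁻¹ ^ k * ((2 * β) ^ k * D.N Y k T f) := by
        gcongr
        exact h1.trans (mul_le_mul_of_nonneg_left (hmax W' hW') (by positivity))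
    _ = _ := by ring

/-- **the abstract end** -/
theorem endAbs [CompactSpace X] [MeasurableSpace X] [BorelSpace X] (μ : Measure X)
    [IsProbabilityMeasure μ] [μ.IsOpenPosMeasure] (D : Sys m X) {Y : ℝ → X → Mt m}
    (hμ : ∀ t, MeasurePreserving (D.Φ t) μ μ)
    (hflip : ∫ f, (D.V f).trace ∂μ = ∫ f, (D.U f).trace ∂μ) (hY : Fund D D.U Y) :
    ∃ P : ℝ, 0 < P ∧ (∀ (a : ℝ) (k : ℕ), 0 < a → k ≤ m →
      ∫ f, (D.U f).trace ∂μ = a * (m + k) → GrowY Y a k → P ≤ (2 * a) ^ (m - k) * (4 * a) ^ k) ∧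
      (Real.log P ≤ ∫ f, Real.log (D.S f).det ∂μ → ∀ t f, D.K (D.Φ t f) = D.K f) := by
  have hEig := H234.eig
  have hKy := H752.kyStmt
  have hN := H647.nStmt
  have hUp := H5.up H752.kyStmt
  obtain ⟨Z, hZ⟩ := H761.fund m X D (fun f => -D.V f) D.cV.neg
  obtain ⟨χ, hanti, hge, -, hlow, hlimN, hsum⟩ :=
    H128.lyap (H761.comp H207.grow) hN hEig hKy hUp m X μ D Y Z hμ hY hZ
  have hχ : ∀ i, 0 < χ i := fun i => lt_of_lt_of_le D.a_pos (hge i)
  have htrU : Continuous fun f => (D.U f).trace := D.cU.matrix_trace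
  have htrV : Continuous fun f => (D.V f).trace := D.cV.matrix_trace
  have hS : ∑ i, χ i = ∫ f, (D.U f).trace ∂μ := by
    have h1 : ∫ f, (D.S f).trace ∂μ = ∫ f, (D.U f).trace ∂μ + ∫ f, (D.V f).trace ∂μ := by
      rw [← integral_add (integrable_cont μ htrU) (integrable_cont μ htrV)]
      exact integral_congr_ae (Eventually.of_forall fun f => Matrix.trace_add _ _)
    linarith
  refine ⟨∏ i, 2 * χ i, Finset.prod_pos fun i _ => mul_pos two_pos (hχ i),
    fun a k ha hk h1 h2 => prod_le_of_psum hχ ha hk (hS.trans h1) ?_, fun hJ => ?_⟩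
  · obtain ⟨c, T₀, hc, h3⟩ := h2.le_N D hY hk
    obtain ⟨-, hpos, hcont, -, -⟩ := hN m X D Y hY k hk
    have h4 : Tendsto (fun T : ℝ => Real.log c / 2 * T⁻¹ + 2 * a * k) atTop
        (𝓝 (Real.log c / 2 * 0 + 2 * a * k)) :=
      (tendsto_inv_atTop_zero.const_mul _).add_const _
    rw [mul_zero, zero_add] at h4
    refine le_of_tendsto_of_tendsto h4 (hlimN k hk) ?_
    filter_upwards [eventually_ge_atTop T₀, eventually_gt_atTop 0] with T hT hT0
    rw [le_div_iff₀ (by positivity)]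
    have h5 := integral_mono (μ := μ) (integrable_const (Real.log c + 4 * a * k * T))
      (integrable_cont μ ((hcont T).log fun f => (hpos T f).ne')) fun f => by
        have := Real.log_le_log (by positivity) (h3 T hT f)
        rwa [Real.log_mul hc.ne' (Real.exp_pos _).ne', Real.log_exp] at this
    rw [integral_const, probReal_univ, one_smul] at h5
    refine le_trans (le_of_eq ?_) h5
    field_simp
    ring
  · have hpart : ∀ k ≤ m, 2 * psum k χ ≤ ∫ f, psum k (fun i => D.ev i f) ∂μ := fun k hk => by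
      have h1 := hlow k hk 1 one_pos
      have h2 := intN_le μ D hμ hKy hN hUp hY hk zero_le_one
      have h3 : ∫ f, psum k (fun i => D.ev i f) ∂μ = ∫ f, sg k (D.S f) ∂μ :=
        integral_congr_ae (Eventually.of_forall fun f => psum_ev hEig D hk f)
      rw [h3]
      linarith
    have htot : 2 * ∑ i, χ i = ∫ f, (∑ i, D.ev i f) ∂μ := by
      rw [hsum]
      exact integral_congr_ae (Eventually.of_forall fun f => (D.ev_spec hEig f).2.2.1)
    obtain ⟨-, hJ2⟩ := H761.jensen m X μ (fun i f => D.ev i f) χ (D.ev_cont hKy)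
      (D.ev_pos hEig) hanti hχ hpart htot
    simp only [D.log_det hEig] at hJ
    rw [Real.log_prod fun i _ => (mul_pos two_pos (hχ i)).ne'] at hJ
    exact fun t f => (H647.par m X D
      (rigid μ D hEig hN hUp (H5.rig hKy hN) hY hlow (hJ2 hJ)) t f).2

end Vale.Agent.P207Z.Fin
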