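import Vale.Agent.P207.N4.Geo.CoreH

/-!
# P207: the statement which joins the two halves
-/

open Set MeasureTheory

noncomputable section

namespace Vale.Agent.P207Z.Fin

open Vale.Agent.P207.N4 Vale.Agent.P207.N3

variable [Dim]

/-- **the smooth alternative always holds** -/
def AltStmt : Prop :=
  ∀ {Γ X B V : Type} [Group Γ] [MetricSpace X] [ProperSpace X] [MulAction Γ X]
    [IsIsometricSMul Γ X] [TopologicalSpace B] [CompactSpace B] [T2Space B] [MulAction Γ B]
    [ContinuousConstSMul Γ B] [MeasurableSpace B] [BorelSpace B]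
    [NormedAddCommGroup V] [NormedSpace ℝ V] [FiniteDimensional ℝ V]
    (L : Leaf Γ X B) (S : Suite L V) (_ : H618.Conn S.I S.M.U) (a b : ℝ),
    0 < a → a ≤ b → (∀ x v, a * ‖v‖ ^ 2 ≤ inner ℝ (S.M.U x v) v) →
    (∀ x v, inner ℝ (S.M.U x v) v ≤ b * ‖v‖ ^ 2) → H662.Calib L S.A →
    (∃ C : ℝ, ∀ x y, dist (L.flip x) (L.flip y) ≤ C * dist x y) → SmoothAlt S.T

end Vale.Agent.P207Z.Fin
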