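import Vale.Agent.P207Z.Fin.OfAlt
import Vale.Agent.P207Z.CS.Main
import Vale.Agent.P207Z.Bun

/-!
# P207: the smooth alternative from the abstract theorem
-/

open Set Filter Topology Metric MeasureTheory

noncomputable section

namespace Vale.Agent.P207Z.Fin

open Vale.Agent.P207.N4 Vale.Agent.P207.N3

/-- the statement of the abstract theorem -/
def AbsStmt : Prop :=
  ∀ {Γ X B E V Y : Type} [Group Γ] [Countable Γ] [MetricSpace X] [ProperSpace X]
    [MulAction Γ X] [IsIsometricSMul Γ X] [MeasurableSpace X] [BorelSpace X]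
    [TopologicalSpace B] [CompactSpace B] [T2Space B] [SecondCountableTopology B] [MulAction Γ B]
    [ContinuousConstSMul Γ B] [MeasurableSpace B] [BorelSpace B]
    [NormedAddCommGroup E] [InnerProductSpace ℝ E] [FiniteDimensional ℝ E]
    [MeasurableSpace E] [BorelSpace E]
    [NormedAddCommGroup V] [NormedSpace ℝ V] [FiniteDimensional ℝ V]
    [MeasurableSpace Y] [MulAction Γ Y]
    {S : Sys Γ X B E V} {m : ℕ} {b : Module.Basis (Fin m) ℝ E} {M : Marg S b},
    Prob S Y → Flip S → Tim S M → Leb S → IsS S.TV fun _ => S.Es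

theorem altStmt_of (h : AbsStmt) [Dim] : AltStmt := by
  intro Γ X B V _ _ _ _ _ _ _ _ _ _ _ _ _ _ _ L S _ _ _ _ _ _ _ _ hfl
  have := CS.countable_Γ L
  have := H824.secondCountable L
  letI : MeasurableSpace X := borel X
  have : BorelSpace X := ⟨rfl⟩
  obtain ⟨Z, M, ⟨Fl⟩, ⟨P⟩, ⟨Tm⟩, hL, h4⟩ :=
    CS.exists_all' L S hfl (EuclideanSpace.basisFun (Fin Dim.m) ℝ).toBasis
  exact h4 Z.TV (fun _ _ _ _ => rfl) (h P Fl Tm hL)

end Vale.Agent.P207Z.Fin
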