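import Vale.Agent.P207Z.Fin.SmOf
import Vale.Agent.P207.SPH.H128.Sys

/-!
# P207: local symmetry from the two halves
-/

open scoped Manifold ContDiff ENNReal Topology Matrix
open Bundle MeasureTheory Set Filter

set_option maxSynthPendingDepth 3
set_option linter.unusedSectionVars false

noncomputable section

namespace Vale.Agent.P207Z.Fin

open Vale.Agent.P207 Vale.Agent.P207.N4 Vale.Agent.P207.N3 Vale.Agent.P207Z.SC

variable [Dim]

/-- **the smooth case** -/
def SmStmt : Prop :=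
  ∀ {Γ X B : Type} [Group Γ] [MetricSpace X] [ProperSpace X] [MulAction Γ X]
    [IsIsometricSMul Γ X] [TopologicalSpace B] [CompactSpace B] [T2Space B] [MulAction Γ B]
    [ContinuousConstSMul Γ B] [MeasurableSpace B] [BorelSpace B] {L : Leaf Γ X B} (S : Sm L),
    SmOut S

open Vale.Agent.P255 (RMetric Npc)
open Vale.Agent.P207.N4.Q Vale.Agent.P207.Q Vale.Agent.P207.Q.H130 Vale.Agent.P207.Q.H892
open H465 (Deck PB Mt toMt ofMt Xt homeoMt)
open H156 (geoA Dk fl co jA)
open H607 (geoInL rieA)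

variable {M : Type} [TopologicalSpace M] [ChartedSpace (EV (Dim.m + 1)) M]
  [IsManifold 𝓘(ℝ, EV (Dim.m + 1)) ∞ M]
  [CompactSpace M] [T2Space M] [ConnectedSpace M] {g : RMetric (EV (Dim.m + 1)) M}

/-- the system of the Riccati data -/
def sysD [Nonempty (Fr g)] (D : MDat g ((horFlows g).Φ 0)) : SPH.Sys Dim.m (Fr g) :=
  SPH.H128.sysOf ((horFlows g).hor 0) ((horFlows g).cont 0) D.ur D.cont D.hi

/-- the bound at one point -/
theorem point_bound (hA : AltStmt) (hS : SmStmt) [Nonempty (Fr g)] (hN : NegCurvature g)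
    (D : MDat g ((horFlows g).Φ 0)) (hle : D.lam ≤ D.Lam) {h : ℝ} (hh : 0 < h) (R : RDat D h)
    {Y : ℝ → Fr g → SPH.Mt Dim.m} (hY : SPH.Fund (sysD D) (sysD D).U Y) (p : M) :
    ∃ (a : ℝ) (k : ℕ), 0 < a ∧ k ≤ Dim.m ∧ h = a * (Dim.m + k) ∧ GrowY Y a k ∧
      sphAvg g (fun v => Real.exp (R.r v) / D.S v) p ≤
        (Real.sqrt ((2 * a) ^ (Dim.m - k) * (4 * a) ^ k))⁻¹ := by
  obtain ⟨F⟩ := exists_full hN D p
  set o := toMt (sys g (npc_of_neg hN)) p 0 with ho
  have C := F.C o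
  have hX := F.X o
  obtain ⟨A, hAh, hAs⟩ := exists_areaL F.hc o C hh R
  obtain ⟨f, hf⟩ := H892.exists_frame g ((sys g (npc_of_neg hN)).e p (ofMt _ _ o))
  set x₀ : Xt g (npc_of_neg hN) p := PB.mk (ofMt _ _ o) f hf.symm with hx₀
  have hft : (geoA hN p).ft x₀ = o := rfl
  have hU : ∀ x, C.metr.U x = H618.cl (D.U (frm x)) := fun x => rfl
  have hcal : H662.Calib (F.hc.leaf o) A :=
    H709.calibR (geoInL F.hc (rieA hN p) o) (over_leaf F.hc o) R hU C.metr_hess hAs
      (D_le_of hX A) (b_base F.hc o hft)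
  have hfl : ∃ c : ℝ, ∀ x y, dist ((F.hc.leaf o).flip x) ((F.hc.leaf o).flip y) ≤
      c * dist x y := by
    obtain ⟨c, -, hc⟩ := Xt.exists_rot_lip (g := g) (h := npc_of_neg hN) (p := p)
    exact ⟨c, fun x y => hc (H908.mo H76.sg) x y⟩
  obtain ⟨T, hT⟩ := exists_sm (suiteOf F.hc o C R hX A hAs x₀)
    (hA _ (suiteOf F.hc o C R hX A hAs x₀) C D.lam D.Lam D.lam_pos hle (metr_lo F.hc o C)
      (metr_hi F.hc o C) hcal hfl) hcal
  have hT' : T.A = A := hT
  obtain ⟨a, k, ha, hk, h1, h2, h3⟩ := hS T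
  rw [hT'] at h1 h3
  refine ⟨a, k, ha, hk, hAh ▸ h1, growY_of (sysD D) hY C.metr (over_leaf F.hc o).surj
    (over_leaf F.hc o).flow hU h2, ?_⟩
  have h4 := H546.mass_le ((horFlows g).hor 0) (over_leaf F.hc o) (geoInL F.hc (rieA hN p) o) R hU
    C.metr_hess hAs (link_frm F.hc o) (b_base F.hc o hft)
  have h5 : (frm x₀).pt = p := hf.trans ((sys g (npc_of_neg hN)).zero p)
  rw [h5] at h4
  have hσ : 0 < (volume : Measure E3).toSphere.real univ := by
    rw [← two_pow_sphm]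
    exact mul_pos (by positivity) (H9.SantM.sph_pos Dim.m)
  have h6 := (ENNReal.ofReal_le_ofReal_iff (by positivity)).1 (h4.trans h3)
  rw [div_eq_mul_inv] at h6
  exact le_of_mul_le_mul_left h6 hσ

/-- **Core** -/
theorem core (hA : AltStmt) (hS : SmStmt) [MeasurableSpace M] [BorelSpace M]
    (hN : NegCurvature g) {φ : ℝ → UT g → UT g} {μ : Measure M} {ν : Measure (UT g)}
    (hφ : IsGeoFlow g φ) (hμ : IsRiemVol g μ) (hm : IsLiouville g μ ν)
    (heq : ksEntropy ν (φ 1) = topEntropy (φ 1)) : LocSymmetric g := by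
  obtain ⟨hsc, hne, hmp, mP, hP, hprob, hop⟩ := H582.exists_setting hφ hμ hm
  obtain ⟨lam, Lam, hl, hle, hb⟩ := H832.N4.exists_Km_neg hN
  obtain ⟨D, hD1, hD2⟩ := exists_MDat_of hl hle hb hφ
  have hΦ := (horFlows g).hor 0
  have hh := (exists_psi_N3 hΦ D hN hφ hμ hm heq).1
  obtain ⟨R⟩ : Nonempty (RDat D (topEntropy (φ 1)).toReal) := by
    obtain ⟨f⟩ := id hne
    obtain ⟨F⟩ := exists_full hN D f.pt
    obtain ⟨ν₀, -, h⟩ := H348.hopfAC_model hN f.pt F.hc
      (toMt (sys g (npc_of_neg hN)) f.pt 0) D hφ hμ hm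
    exact F.exists_rdat hφ hμ hm heq _ h
  obtain ⟨Y, hY⟩ := SPH.H761.fund Dim.m (Fr g) (sysD D) (sysD D).U (sysD D).cU
  have hfl : ∀ a : Fr g → ℝ, ∫ f, a (H582.flipF f) ∂mP = ∫ f, a f ∂mP := fun a =>
    (hP.rot (H582.flipO Dim.m)).integral_comp' (f := (MeasurableEquiv.mk
      ⟨H582.flipF, H582.flipF, H582.flipF_flipF, H582.flipF_flipF⟩ H582.continuous_flipF.measurable
        H582.continuous_flipF.measurable : Fr g ≃ᵐ Fr g)) (g := a)
  have hpush : ∀ a : UT g → ℝ, Continuous a → ∫ f : Fr g, a (f.ut 0) ∂mP = ∫ p, a p ∂ν := by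
    intro a ha
    rw [← hP.ut.map_eq]
    exact (integral_map hP.ut.measurable.aemeasurable ha.aestronglyMeasurable).symm
  obtain ⟨P, hP0, h1, h2⟩ := endAbs mP (sysD D) (fun t => (horFlows g).mp_zero hP hφ hmp t)
    (hfl fun f => (D.U f).trace) hY
  have htr : ∫ f, ((sysD D).U f).trace ∂mP = (topEntropy (φ 1)).toReal := by
    rw [← H582.integral_t hφ hμ hm hΦ R.coc, ← hpush _ D.t.continuous]
    exact integral_congr_ae (Eventually.of_forall fun f => (D.t_eq f).symm)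
  have hF : ∀ p : M, sphAvg g (fun v => Real.exp (R.r v) / D.S v) p ≤ (Real.sqrt P)⁻¹ := fun p => by
    obtain ⟨a, k, ha, hk, h3, h4, h5⟩ := point_bound hA hS hN D (by rw [hD1, hD2]; exact hle)
      hh R hY p
    exact h5.trans (inv_anti₀ (Real.sqrt_pos.2 hP0)
      (Real.sqrt_le_sqrt (h1 a k ha hk (htr.trans h3) h4)))
  have hut : Continuous fun f : Fr g => f.ut 0 := Fr.continuous_ut 0
  have hac : Continuous fun p => Real.exp (R.r p) / D.S p :=
    (Real.continuous_exp.comp R.r.continuous).div D.S.continuous fun p => by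
      obtain ⟨f, rfl⟩ := exists_frame_ut p
      exact (D.S_pos hΦ f).ne'
  have hF2 := H582.integral_le_of_sphAvg hμ hm hac (by positivity) hF
  rw [← hpush _ hac] at hF2
  have hr : Continuous fun f : Fr g => R.r (f.ut 0) := R.r.continuous.comp hut
  have hr' : Continuous fun f : Fr g => R.r ((H582.flipF f).ut 0) := hr.comp H582.continuous_flipF
  have hn : ∀ f : Fr g, D.S (f.ut 0) =
      Real.exp (R.r (f.ut 0) + R.r ((H582.flipF f).ut 0)) := R.norm
  have hJ := convexOn_exp.map_integral_le (μ := mP) (f := fun f => -R.r ((H582.flipF f).ut 0))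
    Real.continuous_exp.continuousOn isClosed_univ (Eventually.of_forall fun _ => mem_univ _)
    (SPH.integrable_cont mP hr'.neg) (SPH.integrable_cont mP (Real.continuous_exp.comp hr'.neg))
  have e1 : ∀ f : Fr g, Real.exp (R.r (f.ut 0)) / D.S (f.ut 0) =
      Real.exp (-R.r ((H582.flipF f).ut 0)) := fun f => by
    rw [hn, ← Real.exp_sub]
    congr 1
    ring
  simp only [e1] at hF2
  have h6 := Real.log_le_log (Real.exp_pos _) (hJ.trans hF2)
  rw [Real.log_exp, Real.log_inv, Real.log_sqrt hP0.le, integral_neg,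
    hfl fun f => R.r (f.ut 0)] at h6
  have h7 : ∫ f, Real.log ((sysD D).S f).det ∂mP = 2 * ∫ f, R.r (f.ut 0) ∂mP := by
    rw [two_mul]
    nth_rw 2 [← hfl fun f => R.r (f.ut 0)]
    rw [← integral_add (SPH.integrable_cont mP hr) (SPH.integrable_cont mP hr')]
    refine integral_congr_ae (Eventually.of_forall fun f => ?_)
    have : ((sysD D).S f).det = D.S (f.ut 0) := (D.S_eq f).symm
    simp only [this, hn, Real.log_exp]
  exact (SPH.H596.loc Dim.m Dim.two_le M g _ hΦ).1 (h2 (by rw [h7]; linarith))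

end Vale.Agent.P207Z.Fin
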