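import Vale.Agent.P207Z.Fin.Core
import Vale.Agent.P207Z.Two.Main
import Vale.Agent.P207.H566N.FinalN

/-!
# P207: the final statement from the two halves
-/

open scoped Manifold ContDiff ENNReal
open Bundle MeasureTheory Set Filter

noncomputable section

namespace Vale.Agent.P207Z.Fin

open Vale.Agent.P255 (RMetric)
open Vale.Agent.P207F Vale.Agent.P207.N4

/-- the final statement, all dimensions -/
theorem final (hA : ∀ [Dim], AltStmt) (hS : ∀ [Dim], SmStmt) (n : ℕ) (hn : 2 ≤ n) (M : Type)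
    [TopologicalSpace M] [CompactSpace M] [T2Space M] [ConnectedSpace M] [ChartedSpace (EV n) M]
    [IsManifold 𝓘(ℝ, EV n) ∞ M] [MeasurableSpace M] [BorelSpace M] :
    (∀ g : RMetric (EV n) M, WellDefined (stdB n) g) ∧
    ∀ g : RMetric (EV n) M, NegCurvature g →
      hLiou (stdB n) g ≤ hTop g ∧ (hLiou (stdB n) g = hTop g ↔ LocSymmetric g) := by
  have hW := fun g : RMetric (EV n) M => wellDefined hn g
  refine ⟨hW, fun g hN => ?_⟩
  rcases hn.eq_or_lt with rfl | h3
  · exact katok_two M g hN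
  have hφ := ((hW g).1 _).2 rfl
  have hμ := ((hW g).2.1 _).2 rfl
  have hm := ((hW g).2.2 _).2 rfl
  refine ⟨QN.liou_le_top hn hN, fun he => ?_,
    fun hs => P207.ksEntropy_eq_of_locSymmetric hn hφ hμ hm hN hs⟩
  obtain ⟨k, rfl⟩ : ∃ k, n = k + 1 := ⟨n - 1, by omega⟩
  have h2 : 2 ≤ k := by omega
  exact @core (Dim.mk k h2) M _ _ _ _ _ _ g (@hA (Dim.mk k h2)) (@hS (Dim.mk k h2)) _ _ hN _ _ _
    hφ hμ hm he

end Vale.Agent.P207Z.Fin
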