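import Vale.Agent.P207Z.Fin.Final
import Vale.Agent.P207Z.Sm.Main0
import Vale.Agent.P207Z.Sm.Kill

/-!
# P207: the final statement from the smooth alternative
-/

open scoped Manifold ContDiff ENNReal
open Bundle MeasureTheory Set Filter

noncomputable section

namespace Vale.Agent.P207Z.Fin

open Vale.Agent.P255 (RMetric)
open Vale.Agent.P207F Vale.Agent.P207.N4

/-- **the smooth case** -/
theorem smStmt [Dim] : SmStmt := fun S =>
  SC.smOut_of_kill S fun _ A h hm had hi ht => SC.kill h A hm had hi ht

/-- the final statement, all dimensions, from the smooth alternative -/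
theorem final_of_alt (hA : ∀ [Dim], AltStmt) (n : ℕ) (hn : 2 ≤ n) (M : Type)
    [TopologicalSpace M] [CompactSpace M] [T2Space M] [ConnectedSpace M] [ChartedSpace (EV n) M]
    [IsManifold 𝓘(ℝ, EV n) ∞ M] [MeasurableSpace M] [BorelSpace M] :
    (∀ g : RMetric (EV n) M, WellDefined (stdB n) g) ∧
    ∀ g : RMetric (EV n) M, NegCurvature g →
      hLiou (stdB n) g ≤ hTop g ∧ (hLiou (stdB n) g = hTop g ↔ LocSymmetric g) :=
  final hA smStmt n hn M

end Vale.Agent.P207Z.Fin
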