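import Vale.Agent.P207Z.Fin.Alt
import Vale.Agent.P207Z.Fin.Abs
import Vale.Agent.P207Z.Sm.Defs
import Vale.Agent.P207.N4.H391.SmB

/-!
# P207: the smooth boundary from the smooth alternative; growth of the fundamental solution
-/

open Set Filter Topology Metric MeasureTheory Matrix
open scoped ContDiff

noncomputable section

namespace Vale.Agent.P207Z.Fin

open Vale.Agent.P207.N4 Vale.Agent.P207.N3 Vale.Agent.P207Z.SC

section Sec

variable {W : Type} [NormedAddCommGroup W] [NormedSpace ℝ W]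

/-- the second difference and the mixed derivative -/
theorem second_diff {F : W × W → ℝ} (hF : ContDiffAt ℝ 2 F 0) (u u' : W) :
    Tendsto (fun t : ℝ => (F (t • u', t • u) + F (0, 0) - F (0, t • u) - F (t • u', 0)) / t ^ 2)
      (𝓝[>] 0) (𝓝 (mix F (0, 0) u u')) := by
  obtain ⟨U, hU, hFU⟩ := hF.contDiffOn le_rfl (by simp)
  obtain ⟨ε, hε, hb⟩ := Metric.mem_nhds_iff.1 hU
  have hF2 : ContDiffOn ℝ 2 F (ball 0 ε) := hFU.mono hb
  have hd : ∀ z ∈ ball (0 : W × W) ε, HasFDerivAt F (fderiv ℝ F z) z := fun z hz =>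
    ((hF2.contDiffAt (isOpen_ball.mem_nhds hz)).differentiableAt (by simp)).hasFDerivAt
  have hd2 : HasFDerivAt (fderiv ℝ F) (fderiv ℝ (fderiv ℝ F) 0) 0 :=
    ((hF.fderiv_right (m := 1) (by norm_num)).differentiableAt (by simp)).hasFDerivAt
  set T := fderiv ℝ (fderiv ℝ F) 0 with hT
  have hmix : mix F (0, 0) u u' = T (0, u) (u', 0) := by
    have h1 : (fun b => fderiv ℝ (fun a => F (a, b)) 0) =ᶠ[𝓝 0]
        fun b => (fderiv ℝ F (0, b)).comp (ContinuousLinearMap.inl ℝ W W) := by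
      have : ∀ᶠ b in 𝓝 (0 : W), ((0, b) : W × W) ∈ ball (0 : W × W) ε :=
        (Continuous.prodMk_right (0 : W)).continuousAt.eventually_mem
          (isOpen_ball.mem_nhds (mem_ball_self hε))
      filter_upwards [this] with b hb
      exact ((hd _ hb).comp (0 : W) (hasFDerivAt_prodMk_left (0 : W) b)).fderiv
    have h2 : HasFDerivAt (fun b : W => fderiv ℝ F (0, b))
        (T.comp (ContinuousLinearMap.inr ℝ W W)) 0 :=
      HasFDerivAt.comp (0 : W) (g := fderiv ℝ F) hd2 (hasFDerivAt_prodMk_right (0 : W) (0 : W))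
    have h3 := (h2.clm_comp (hasFDerivAt_const (ContinuousLinearMap.inl ℝ W W) (0 : W))).fderiv
    unfold mix
    rw [h1.fderiv_eq, h3]
    simp
  rw [hmix]
  -- the derivative of `g t = F (t u', t u) - F (0, t u) - F (t u', 0)`
  have hl : ∀ z : W × W, Tendsto (fun t : ℝ => (F (t • z) - F 0 - t * fderiv ℝ F 0 z) / t ^ 2)
      (𝓝[>] 0) (𝓝 (T z z / 2)) := by
    intro z
    have hz : ∀ᶠ t : ℝ in 𝓝 0, t • z ∈ ball (0 : W × W) ε :=
      (continuous_id.smul continuous_const).continuousAt.eventually_mem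
        (by simpa using isOpen_ball.mem_nhds (mem_ball_self hε))
    have hz0 : HasDerivAt (fun t : ℝ => t • z) z 0 := by
      simpa using (hasDerivAt_id (0 : ℝ)).smul_const z
    have h1 : HasDerivAt (fun t : ℝ => fderiv ℝ F (t • z) z) (T z z) 0 := by
      have h := (HasFDerivAt.comp_hasDerivAt_of_eq (0 : ℝ) hd2 hz0 (by simp)).clm_apply
        (hasDerivAt_const (0 : ℝ) z)
      simpa using h
    refine HasDerivAt.lhopital_zero_nhdsGT
      (f' := fun t => fderiv ℝ F (t • z) z - fderiv ℝ F 0 z) (g' := fun t => 2 * t) ?_ ?_ ?_ ?_ ?_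
      ?_
    · filter_upwards [mem_nhdsWithin_of_mem_nhds hz] with t ht
      have h2 : HasDerivAt (fun t : ℝ => t • z) z t := by
        simpa using (hasDerivAt_id t).smul_const z
      have h3 := (((hd _ ht).comp_hasDerivAt t h2).sub_const (F 0)).sub
        ((hasDerivAt_id t).mul_const (fderiv ℝ F 0 z))
      exact h3.congr_deriv (by rw [one_mul])
    · exact Eventually.of_forall fun t => by simpa using hasDerivAt_pow 2 t
    · filter_upwards [self_mem_nhdsWithin] with t ht
      exact mul_ne_zero two_ne_zero (ne_of_gt ht)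
    · have h2 : ContinuousAt (fun t : ℝ => F (t • z) - F 0 - t * fderiv ℝ F 0 z) 0 :=
        ((ContinuousAt.comp_of_eq hF.continuousAt hz0.continuousAt (by simp)).sub
          continuousAt_const).sub (by fun_prop)
      simpa using h2.tendsto.mono_left nhdsWithin_le_nhds
    · have h2 : ContinuousAt (fun t : ℝ => t ^ 2) 0 := by fun_prop
      simpa using h2.tendsto.mono_left nhdsWithin_le_nhds
    · have h2 := (hasDerivAt_iff_tendsto_slope_zero.1 h1).mono_left
        (nhdsWithin_mono _ fun t (ht : t ∈ Ioi (0 : ℝ)) => ne_of_gt ht)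
      refine (h2.div_const 2).congr fun t => ?_
      simp only [zero_add, zero_smul, smul_eq_mul]
      ring
  have hs : T (u', 0) (0, u) = T (0, u) (u', 0) :=
    (hF.isSymmSndFDerivAt (by simp)).eq _ _
  have h := ((hl (u', u)).sub (hl (0, u))).sub (hl (u', 0))
  have e : ((u', u) : W × W) = (u', 0) + (0, u) := by simp
  have e1 : T (u', u) (u', u) / 2 - T (0, u) (0, u) / 2 - T (u', 0) (u', 0) / 2 =
      T (0, u) (u', 0) := by
    rw [e]
    simp only [map_add, _root_.add_apply, hs]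
    ring
  rw [e1] at h
  refine h.congr fun t => ?_
  have e2 : fderiv ℝ F 0 (u', u) = fderiv ℝ F 0 (u', 0) + fderiv ℝ F 0 (0, u) := by
    rw [e, map_add]
  rw [e2]
  simp only [Prod.smul_mk, smul_zero, show ((0, 0) : W × W) = 0 from rfl]
  ring

end Sec

variable [Dim]

variable {Γ X B V : Type} [Group Γ] [MetricSpace X] [ProperSpace X] [MulAction Γ X]
  [IsIsometricSMul Γ X] [TopologicalSpace B] [CompactSpace B] [T2Space B] [MulAction Γ B]
  [ContinuousConstSMul Γ B] [MeasurableSpace B] [BorelSpace B]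
  [NormedAddCommGroup V] [NormedSpace ℝ V] [FiniteDimensional ℝ V] {L : Leaf Γ X B}

/-- the smooth boundary from the smooth alternative -/
theorem exists_sm (S : Suite L V) (hA : SmoothAlt S.T) (C : H662.Calib L S.A) :
    ∃ T : Sm L, T.A = S.A := by
  obtain ⟨x₀, hx₀⟩ := S.X.exists_base
  have h := H391.smB_of_alt S.I S.M S.H hA hx₀ S.A.D S.A.D_eq
  refine ⟨⟨S.A, h.tau_jc, h.f_jc, fun x y z hz => h.nd x y z.1 z.2 hz, C.D_nonpos, C.x, ?_⟩, rfl⟩
  have h0 : (0 : E2) ∈ ball (0 : E2) 3 := mem_ball_self (by norm_num)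
  have e1 : L.e (L.flip C.x) 0 = L.em C.x := by rw [L.e_zero, L.ep_flip, L.flip_flip]
  have hF : ContDiffAt ℝ ∞ (FF L S.A.D (L.flip C.x) C.x) 0 :=
    h.f_jc.contDiffAt (p := ((L.flip C.x, C.x), 0)) ⟨h0, h0, by
      simp only [Prod.fst_zero, Prod.snd_zero, e1, L.e_zero]
      exact L.em_ne_ep _⟩
  have hm : ∀ u u', mix (FF L S.A.D (L.flip C.x) C.x) (0, 0) u u' = -C.T u u' := fun u u' => by
    refine tendsto_nhds_unique (second_diff (hF.of_le (WithTop.coe_le_coe.2 le_top)) u u') ?_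
    simpa only [FF, e1, L.e_zero] using C.lim u u'
  rw [C.s_mul, mdet]
  simp only [hm]
  have e2 : (Matrix.of fun i j : Fin Dim.m =>
      -C.T (EuclideanSpace.single i 1) (EuclideanSpace.single j 1)) =
      -Matrix.of fun i j : Fin Dim.m =>
        C.T (EuclideanSpace.single i 1) (EuclideanSpace.single j 1) := rfl
  rw [e2, Matrix.det_neg, abs_mul, abs_pow, abs_neg, abs_one, one_pow, one_mul]
  exact abs_of_pos C.T_pos

omit [MeasurableSpace B] [BorelSpace B] in
/-- growth of volumes in terms of the fundamental solution -/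
theorem growY_of {Z : Type} [TopologicalSpace Z] (D : Vale.Agent.P207.SPH.Sys Dim.m Z)
    {Y : ℝ → Z → Vale.Agent.P207.SPH.Mt Dim.m} (hY : Vale.Agent.P207.SPH.Fund D D.U Y)
    (W : Metr L) {fr : X → Z} (hs : Function.Surjective fr)
    (hfl : ∀ t x, fr (L.φ t x) = D.Φ t (fr x)) (hU : ∀ x, W.U x = H618.cl (D.U (fr x)))
    {a : ℝ} {k : ℕ} (h : Grow L a k) : GrowY Y a k := by
  obtain ⟨c, hc, h⟩ := h
  refine ⟨c, L.t1, hc, fun T hT f => ?_⟩
  obtain ⟨x, rfl⟩ := hs f
  obtain ⟨w, w', hw, hw', hle⟩ := h x T hT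
  have hYd : ∀ t, HasDerivAt (fun s => H618.cl (Y s (fr x)))
      (H618.cl (D.U (D.Φ t (fr x)) * Y t (fr x))) t := fun t => by
    simp only [H618.cl_eq_sum]
    exact HasDerivAt.fun_sum fun i _ => HasDerivAt.fun_sum fun j _ =>
      (hY.der (fr x) t i j).smul_const (H618.el i j)
  have hd : ∀ t, HasDerivAt
      (fun s => fderiv ℝ (L.τ (L.φ s x) x) 0 ∘L H618.cl (Y s (fr x))) 0 t := fun t => by
    refine ((W.jac x t).clm_comp (hYd t)).congr_deriv ?_
    rw [H618.cl_mul, hU, hfl, ContinuousLinearMap.neg_comp, ContinuousLinearMap.comp_assoc,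
      neg_add_cancel]
  have h1 := is_const_of_deriv_eq_zero (fun t => (hd t).differentiableAt)
    (fun t => (hd t).deriv) T 0
  have h2 : fderiv ℝ (L.τ x x) 0 = ContinuousLinearMap.id ℝ E2 := by
    have : L.τ x x =ᶠ[𝓝 0] id := by
      filter_upwards [closedBall_mem_nhds (0 : E2) (by norm_num : (0 : ℝ) < 3)] with u hu
      exact (L.e_inj x).leftInvOn_invFunOn hu
    rw [this.fderiv_eq, fderiv_id]
  simp only [L.φ_zero, hY.zero, H618.cl_one, h2, ContinuousLinearMap.comp_id] at h1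
  have h3 : ∀ i, w' i = H618.cl (Y T (fr x)) (w i) := fun i => by
    have hi : Function.Injective (fderiv ℝ (L.τ (L.φ T x) x) 0) := by
      refine LinearMap.injective_iff_surjective
        (f := (fderiv ℝ (L.τ (L.φ T x) x) 0 : E2 →ₗ[ℝ] E2)).2 fun v => ⟨H618.cl (Y T (fr x)) v, ?_⟩
      exact congrArg (fun A : E2 →L[ℝ] E2 => A v) h1
    refine hi ?_
    rw [hw']
    exact (congrArg (fun A : E2 →L[ℝ] E2 => A (w i)) h1).symm
  refine ⟨Matrix.of fun i j => w j i, ?_, hle.trans (le_of_eq ?_)⟩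
  · ext i j
    have := orthonormal_iff_ite.1 hw i j
    rw [H618.inner_eq_dot] at this
    rw [Matrix.one_apply, ← this]
    rfl
  · congr 1
    ext i j
    rw [Matrix.of_apply, h3, h3, H618.inner_eq_dot]
    rfl

end Vale.Agent.P207Z.Fin
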